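import Vale.Agent.P066.Lab.QT0
import Vale.Agent.P066.Lab.Deriv
import Vale.Agent.P066.Lab.H678.Fin

/-!
# The letters of the PBW alphabet

`PF a θ d m` : alternating homogeneous polynomials of degree `m` in the particles of `d` which lie
in the first step of the growth filtration.  The letters of class `d` (`d ≠ 0`, weight `0`) and
degree `m` are indexed by `Fin (hV a θ d m)`, `hV` = dimension of `PF` modulo `J0`.
-/

set_option autoImplicit false
set_option linter.unusedSectionVars false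

open Finset MvPolynomial

namespace Vale.Agent.P066.Lab

noncomputable section

variable {n : ℕ} (a : Fin n → Fin n → ℕ) (θ : Fin n → ℤ)

/-- the ideal `J0` of all particles of `d`, as a subspace -/
abbrev JD (d : Fin n →₀ ℕ) : Submodule ℚ (MvPolynomial (Pt d) ℚ) :=
  (J0 ℚ (aP a d) (θP θ d) univ).restrictScalars ℚ

theorem Fil.add {S : Type} [Fintype S] [DecidableEq S] {k : Type} [Field k] {a : S → S → ℕ}
    {θ : S → ℤ} {N : ℤ} {f g : MvPolynomial S k} (hf : Fil k a θ N f) (hg : Fil k a θ N g) :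
    Fil k a θ N (f + g) := fun m hm => (hf m hm).add (hg m hm)

theorem Fil.C_mul {S : Type} [Fintype S] [DecidableEq S] {k : Type} [Field k] {a : S → S → ℕ}
    {θ : S → ℤ} {N : ℤ} (r : k) {f : MvPolynomial S k} (hf : Fil k a θ N f) :
    Fil k a θ N (C r * f) := fun m hm => (hf m hm).C_mul r

theorem Fil.smul {S : Type} [Fintype S] [DecidableEq S] {k : Type} [Field k] {a : S → S → ℕ}
    {θ : S → ℤ} {N : ℤ} (r : k) {f : MvPolynomial S k} (hf : Fil k a θ N f) :
    Fil k a θ N (r • f) := by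
  rw [MvPolynomial.smul_eq_C_mul]
  exact hf.C_mul r

theorem Fil.mono {S : Type} [Fintype S] [DecidableEq S] {k : Type} [Field k] {a : S → S → ℕ}
    {θ : S → ℤ} {N N' : ℤ} (h : N ≤ N') {f : MvPolynomial S k} (hf : Fil k a θ N f) :
    Fil k a θ N' f := fun m hm => (hf m hm).mono h

theorem Fil.of_mem {S : Type} [Fintype S] [DecidableEq S] {k : Type} [Field k] {a : S → S → ℕ}
    {θ : S → ℤ} (N : ℤ) {f : MvPolynomial S k} (hf : f ∈ J0 k a θ univ) :
    Fil k a θ N f := fun m _ => Lev.of_mem N (by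
  have h := JC_le_of_ref (k := k) (a := a) (θ := θ) (ref_const m 0)
  rw [Fin678.JC_const] at h
  exact h hf)

theorem Fil.zero {S : Type} [Fintype S] [DecidableEq S] {k : Type} [Field k] {a : S → S → ℕ}
    {θ : S → ℤ} (N : ℤ) : Fil k a θ N (0 : MvPolynomial S k) := Fil.of_mem N (Ideal.zero_mem _)

/-- the filtration as a subspace -/
def FilS (S : Type) [Fintype S] [DecidableEq S] (k : Type) [Field k] (a : S → S → ℕ) (θ : S → ℤ)
    (N : ℤ) : Submodule k (MvPolynomial S k) where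
  carrier := {f | Fil k a θ N f}
  add_mem' := fun hf hg => hf.add hg
  zero_mem' := Fil.zero N
  smul_mem' := fun r _ hf => hf.smul r

theorem mem_FilS {S : Type} [Fintype S] [DecidableEq S] {k : Type} [Field k] {a : S → S → ℕ}
    {θ : S → ℤ} {N : ℤ} {f : MvPolynomial S k} : f ∈ FilS S k a θ N ↔ Fil k a θ N f := Iff.rfl

/-- alternating homogeneous primitive polynomials of degree `m` -/
def PF (d : Fin n →₀ ℕ) (m : ℕ) : Submodule ℚ (MvPolynomial (Pt d) ℚ) :=
  AltH ℚ (Sigma.fst : Pt d → Fin n) m ⊓ FilS (Pt d) ℚ (aP a d) (θP θ d) 1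

/-- their classes modulo `J0` -/
def PV (d : Fin n →₀ ℕ) (m : ℕ) : Submodule ℚ (MvPolynomial (Pt d) ℚ ⧸ JD a θ d) :=
  (PF a θ d m).map (JD a θ d).mkQ

instance finite_AltH (d : Fin n →₀ ℕ) (m : ℕ) :
    Module.Finite ℚ ↥(AltH ℚ (Sigma.fst : Pt d → Fin n) m) := by
  unfold AltH
  infer_instance

instance finite_PF (d : Fin n →₀ ℕ) (m : ℕ) : Module.Finite ℚ ↥(PF a θ d m) :=
  Module.Finite.of_injective (Submodule.inclusion
    (inf_le_left : PF a θ d m ≤ AltH ℚ (Sigma.fst : Pt d → Fin n) m))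
    (Submodule.inclusion_injective _)

instance finite_PV (d : Fin n →₀ ℕ) (m : ℕ) : Module.Finite ℚ ↥(PV a θ d m) := by
  unfold PV
  infer_instance

/-- number of letters of class `d` and degree `m` -/
def hV (d : Fin n →₀ ℕ) (m : ℕ) : ℕ := Module.finrank ℚ ↥(PV a θ d m)

/-- the classes which carry letters -/
abbrev Cls : Type := {d : Fin n →₀ ℕ // d ≠ 0 ∧ Theta.wt θ d = 0}

/-- the letters -/
def Let : Type := Σ d : Cls θ, Σ m : ℕ, Fin (hV a θ d.1 m)

variable {a θ}

/-- class of a letter -/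
def Let.cl (y : Let a θ) : Fin n →₀ ℕ := y.1.1

/-- degree of a letter -/
def Let.dg (y : Let a θ) : ℕ := y.2.1

theorem Let.cl_ne (y : Let a θ) : y.cl ≠ 0 := y.1.2.1

theorem Let.wt_cl (y : Let a θ) : Theta.wt θ y.cl = 0 := y.1.2.2

/-- chosen basis of the primitive part -/
def basisPV (d : Fin n →₀ ℕ) (m : ℕ) : Module.Basis (Fin (hV a θ d m)) ℚ ↥(PV a θ d m) :=
  Module.finBasis ℚ ↥(PV a θ d m)

theorem exists_vec (d : Fin n →₀ ℕ) (m : ℕ) (i : Fin (hV a θ d m)) :
    ∃ f ∈ PF a θ d m, (JD a θ d).mkQ f = (basisPV (a := a) (θ := θ) d m i : _) := by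
  have h := (basisPV (a := a) (θ := θ) d m i).2
  exact h

/-- representative of a letter, with explicit class -/
def vecD (d : Fin n →₀ ℕ) (m : ℕ) (i : Fin (hV a θ d m)) : MvPolynomial (Pt d) ℚ :=
  (exists_vec (a := a) (θ := θ) d m i).choose

theorem vecD_mem (d : Fin n →₀ ℕ) (m : ℕ) (i : Fin (hV a θ d m)) :
    vecD (a := a) (θ := θ) d m i ∈ PF a θ d m :=
  (exists_vec (a := a) (θ := θ) d m i).choose_spec.1

theorem vecD_mk (d : Fin n →₀ ℕ) (m : ℕ) (i : Fin (hV a θ d m)) :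
    (JD a θ d).mkQ (vecD (a := a) (θ := θ) d m i) = (basisPV (a := a) (θ := θ) d m i : _) :=
  (exists_vec (a := a) (θ := θ) d m i).choose_spec.2

/-- representative of a letter -/
def Let.vec (y : Let a θ) : MvPolynomial (Pt y.cl) ℚ := vecD y.1.1 y.2.1 y.2.2

theorem Let.vec_mem (y : Let a θ) : y.vec ∈ PF a θ y.cl y.dg := vecD_mem _ _ _

theorem Let.vec_alt (y : Let a θ) :
    y.vec ∈ Theta.H422.Alt ℚ (Sigma.fst : Pt y.cl → Fin n) := y.vec_mem.1.1

theorem Let.vec_hom (y : Let a θ) : y.vec.IsHomogeneous y.dg :=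
  (mem_homogeneousSubmodule _ _).1 y.vec_mem.1.2

theorem Let.vec_fil (y : Let a θ) : Fil ℚ (aP a y.cl) (θP θ y.cl) 1 y.vec := y.vec_mem.2

theorem linearIndependent_vecD (d : Fin n →₀ ℕ) (m : ℕ) :
    LinearIndependent ℚ fun i : Fin (hV a θ d m) =>
      (JD a θ d).mkQ (vecD (a := a) (θ := θ) d m i) := by
  have h := (basisPV (a := a) (θ := θ) d m).linearIndependent
  have h2 := h.map' (PV a θ d m).subtype (Submodule.ker_subtype _)
  have h3 : (fun i : Fin (hV a θ d m) => (JD a θ d).mkQ (vecD (a := a) (θ := θ) d m i)) =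
      (PV a θ d m).subtype ∘ (basisPV (a := a) (θ := θ) d m) := funext fun i => vecD_mk d m i
  rw [h3]
  exact h2

/-- homogeneous primitive polynomials are combinations of letters modulo `J0` -/
theorem exists_sum_vecD {d : Fin n →₀ ℕ} {m : ℕ} {f : MvPolynomial (Pt d) ℚ}
    (hf : f ∈ PF a θ d m) :
    ∃ r : Fin (hV a θ d m) → ℚ, f - ∑ i, r i • vecD (a := a) (θ := θ) d m i ∈
      J0 ℚ (aP a d) (θP θ d) univ := by
  let x : ↥(PV a θ d m) := ⟨(JD a θ d).mkQ f, f, hf, rfl⟩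
  refine ⟨fun i => (basisPV (a := a) (θ := θ) d m).repr x i, ?_⟩
  have h1 := (basisPV (a := a) (θ := θ) d m).sum_repr x
  have h2 := congrArg (Subtype.val) h1
  rw [AddSubmonoidClass.coe_finsetSum] at h2
  have h3 : (JD a θ d).mkQ (f - ∑ i, (basisPV (a := a) (θ := θ) d m).repr x i •
      vecD (a := a) (θ := θ) d m i) = 0 := by
    rw [map_sub, map_sum, sub_eq_zero]
    rw [show (JD a θ d).mkQ f = (x : _) from rfl, ← h2]
    refine sum_congr rfl fun i _ => ?_
    rw [map_smul, vecD_mk]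
    rfl
  rw [Submodule.mkQ_apply, Submodule.Quotient.mk_eq_zero] at h3
  exact h3

theorem Fil.sub {S : Type} [Fintype S] [DecidableEq S] {k : Type} [Field k] {a : S → S → ℕ}
    {θ : S → ℤ} {N : ℤ} {f g : MvPolynomial S k} (hf : Fil k a θ N f) (hg : Fil k a θ N g) :
    Fil k a θ N (f - g) := (FilS S k a θ N).sub_mem hf hg

theorem Fil.sum {S : Type} [Fintype S] [DecidableEq S] {k : Type} [Field k] {a : S → S → ℕ}
    {θ : S → ℤ} {N : ℤ} {ι : Type*} {s : Finset ι} {f : ι → MvPolynomial S k}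
    (hf : ∀ i ∈ s, Fil k a θ N (f i)) : Fil k a θ N (∑ i ∈ s, f i) :=
  (FilS S k a θ N).sum_mem hf

/-! ### the alphabet -/

theorem wS_univ (d : Fin n →₀ ℕ) : wS (θP θ d) (univ : Finset (Pt d)) = Theta.wt θ d := by
  unfold wS θP Theta.wt
  rw [← univ_sigma_univ, sum_sigma]
  refine sum_congr rfl fun i _ => ?_
  simp

theorem nonempty_Pt {d : Fin n →₀ ℕ} (hd : d ≠ 0) : Nonempty (Pt d) := by
  obtain ⟨i, hi⟩ := Finsupp.ne_iff.1 hd
  exact ⟨⟨i, ⟨0, Nat.pos_of_ne_zero hi⟩⟩⟩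

variable (a) in
/-- finiteness: no letters in large degree -/
theorem hV_eq_zero {d : Fin n →₀ ℕ} (hd : d ≠ 0) (hw : Theta.wt θ d = 0) :
    ∃ D0 : ℕ, ∀ m, D0 ≤ m → hV a θ d m = 0 := by
  obtain ⟨D0, h0⟩ := Fin678.fin_V (k := ℚ) (a := aP a d) (θ := θP θ d) (by rw [wS_univ, hw])
  have := nonempty_Pt hd
  refine ⟨D0, fun m hm => ?_⟩
  unfold hV
  have : PV a θ d m = ⊥ := by
    rw [eq_bot_iff]
    rintro _ ⟨f, hf, rfl⟩
    rw [Submodule.mem_bot, Submodule.mkQ_apply, Submodule.Quotient.mk_eq_zero]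
    have h1 := h0 m f hm ((mem_homogeneousSubmodule _ _).1 hf.1.2) (fun c hc _ => by
      rw [Fin678.nb_const, Fin678.CC_const]
      simpa using hf.2 c hc)
    rwa [Fin678.JC_const] at h1
  rw [this, finrank_bot]

theorem finite_let (D : ℕ) : {y : Let a θ | Theta.deg y.cl ≤ D}.Finite := by
  classical
  have h1 : {d : Fin n →₀ ℕ | Theta.deg d ≤ D}.Finite := by
    refine Set.Finite.of_finite_image (f := fun d : Fin n →₀ ℕ => (d : Fin n → ℕ))
      ((Set.finite_Iic (fun _ => D : Fin n → ℕ)).subset ?_) DFunLike.coe_injective.injOn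
    rintro _ ⟨d, hd, rfl⟩ i
    exact (single_le_sum (f := fun i => d i) (fun _ _ => Nat.zero_le _) (mem_univ i)).trans hd
  have h2 : {c : Cls θ | Theta.deg c.1 ≤ D}.Finite :=
    Set.Finite.of_finite_image (f := Subtype.val) (h1.subset (by
      rintro _ ⟨c, hc, rfl⟩; exact hc)) Subtype.val_injective.injOn
  have h3 : ∀ c : Cls θ, {x : Σ m : ℕ, Fin (hV a θ c.1 m) | True}.Finite := by
    intro c
    obtain ⟨D0, h0⟩ := hV_eq_zero a c.2.1 c.2.2
    refine Set.Finite.subset (((Finset.range D0).sigma fun m =>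
      (univ : Finset (Fin (hV a θ c.1 m)))).finite_toSet) ?_
    rintro ⟨m, i⟩ -
    rw [mem_coe, mem_sigma, mem_range]
    refine ⟨?_, mem_univ _⟩
    by_contra h
    have := h0 m (not_lt.1 h)
    exact (Fin.cast this i).elim0
  refine Set.Finite.subset (h2.toFinset.sigma fun c => (h3 c).toFinset :
    Finset (Let a θ)).finite_toSet ?_
  rintro ⟨c, x⟩ hy
  rw [mem_coe, mem_sigma, Set.Finite.mem_toFinset, Set.Finite.mem_toFinset]
  exact ⟨hy, trivial⟩

variable (a θ) in
/-- the alphabet of the letters -/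
def Tal : H347.MAlph n where
  A := Let a θ
  k := Let.cl
  e y := 2 * (y.dg : ℤ) + cq a y.cl
  odd y := Odd (cq a y.cl)
  k_pos y := by
    rw [H347.szF_apply]
    exact Nat.pos_of_ne_zero fun h => y.cl_ne (by
      ext i
      have := (Finset.sum_eq_zero_iff_of_nonneg fun _ _ => Nat.zero_le _).1 h i (mem_univ i)
      simpa using this)
  fin N E := (finite_let N).subset fun y hy => by
    have := hy.1
    rwa [H347.szF_apply] at this

end

end Vale.Agent.P066.Lab
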