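import Vale.Agent.P066.Lab.LSW.Defs
import Vale.Agent.P066.Lab.H402.Letters
import Vale.Agent.P066.Lab.H678.Homog

/-!
# [W0] existence of the letters
-/

set_option autoImplicit false
set_option linter.unusedSectionVars false

open Finset MvPolynomial

namespace Vale.Agent.P066.Lab.H402

open Vale.Agent.P066.Lab Vale.Agent.P066.Lab.LSW Vale.Agent.P066.Lab.H678
open Vale.Agent.P066.Theta.H422 (Alt TP mem_TP mem_Alt)

noncomputable section

variable {n : ℕ} {a : Fin n → Fin n → ℕ} {θ : Fin n → ℤ}

theorem rename_hc {S : Type} {k : Type} [Field k] (σ : Equiv.Perm S) (m : ℕ)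
    (f : MvPolynomial S k) :
    rename σ (homogeneousComponent m f) = homogeneousComponent m (rename σ f) := by
  conv_rhs => rw [← sum_homogeneousComponent f, map_sum, map_sum]
  have h1 : ∀ i, homogeneousComponent m (rename σ (homogeneousComponent i f)) =
      if m = i then rename σ (homogeneousComponent i f) else 0 := fun i =>
    homogeneousComponent_of_mem
      ((homogeneousComponent_isHomogeneous i f).rename_isHomogeneous)
  rw [sum_congr rfl fun i _ => h1 i, sum_ite_eq]
  split_ifs with h
  · rfl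
  · rw [mem_range, not_lt] at h
    rw [homogeneousComponent_eq_zero _ _ (by omega), map_zero]

theorem alt_hc {S I : Type} [Fintype S] [DecidableEq S] [Fintype I] [DecidableEq I] {k : Type}
    [Field k] {c : S → I} {f : MvPolynomial S k} (hf : f ∈ Alt k c) (m : ℕ) :
    homogeneousComponent m f ∈ Alt k c := by
  intro σ hσ
  rw [rename_hc, hf σ hσ, map_smul]

variable (a θ) in
/-- the letters of class `d` -/
def YY (d : Fin n →₀ ℕ) : Type :=
  {_x : Σ m : ℕ, Fin (hV a θ d m) // d ≠ 0 ∧ Theta.wt θ d = 0}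

theorem finite_YY (d : Fin n →₀ ℕ) : Finite (YY a θ d) := by
  by_cases h : d ≠ 0 ∧ Theta.wt θ d = 0
  · obtain ⟨D0, h0⟩ := hV_eq_zero a h.1 h.2
    have : Finite (Σ m : ℕ, Fin (hV a θ d m)) := by
      apply Finite.of_injective (β := Σ m : Fin D0, Fin (hV a θ d m))
        (fun x => ⟨⟨x.1, by
          by_contra hc
          have := h0 x.1 (not_lt.1 hc)
          exact (Fin.cast this x.2).elim0⟩, x.2⟩)
      rintro ⟨m, i⟩ ⟨m', i'⟩ hx
      simp only [Sigma.mk.injEq, Fin.mk.injEq] at hx
      obtain ⟨rfl, h2⟩ := hx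
      rw [eq_of_heq h2]
    exact Subtype.finite
  · have : IsEmpty (YY a θ d) := ⟨fun x => h x.2⟩
    infer_instance

theorem linearIndependent_YY (d : Fin n →₀ ℕ) :
    LinearIndependent ℚ fun y : YY a θ d =>
      Ideal.Quotient.mk (J0 ℚ (aP a d) (θP θ d) univ) (vecD (a := a) (θ := θ) d y.1.1 y.1.2) := by
  classical
  have h1 : LinearIndependent ℚ fun y : Σ m : ℕ, Fin (hV a θ d m) =>
      Ideal.Quotient.mk (J0 ℚ (aP a d) (θP θ d) univ) (vecD (a := a) (θ := θ) d y.1 y.2) := by
    rw [linearIndependent_iff']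
    intro s g hg y hy
    -- the relation
    have hrel : ∑ x ∈ s, g x • vecD (a := a) (θ := θ) d x.1 x.2 ∈
        J0 ℚ (aP a d) (θP θ d) univ := by
      rw [← Ideal.Quotient.eq_zero_iff_mem, map_sum, ← hg]
      exact sum_congr rfl fun x _ => rfl
    -- its component in degree `y.1`
    have hc := J0_homI (k := ℚ) (a := aP a d) (θ := θP θ d) univ y.1 _ hrel
    rw [map_sum] at hc
    have h2 : ∀ x ∈ s, homogeneousComponent y.1 (g x • vecD (a := a) (θ := θ) d x.1 x.2) =
        if x.1 = y.1 then g x • vecD (a := a) (θ := θ) d x.1 x.2 else 0 := by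
      intro x _
      rw [map_smul, homogeneousComponent_of_mem (vecD_mem (a := a) (θ := θ) d x.1 x.2).1.2]
      by_cases h : x.1 = y.1
      · rw [if_pos h, if_pos h.symm]
      · rw [if_neg h, if_neg (fun hh => h hh.symm), smul_zero]
    rw [sum_congr rfl h2] at hc
    -- independence in degree `y.1`
    have h3 := linearIndependent_vecD (a := a) (θ := θ) d y.1
    rw [Fintype.linearIndependent_iff] at h3
    have h4 := h3 (fun i => if (⟨y.1, i⟩ : Σ m : ℕ, Fin (hV a θ d m)) ∈ s then g ⟨y.1, i⟩ else 0) ?_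
      y.2
    · rw [if_pos hy] at h4
      exact h4
    · have h5 : ∑ i : Fin (hV a θ d y.1), (if (⟨y.1, i⟩ : Σ m : ℕ, Fin (hV a θ d m)) ∈ s then
          g ⟨y.1, i⟩ else 0) • vecD (a := a) (θ := θ) d y.1 i =
          ∑ x ∈ s, if x.1 = y.1 then g x • vecD (a := a) (θ := θ) d x.1 x.2 else 0 := by
        rw [← sum_filter]
        have h6 : s.filter (fun x => x.1 = y.1) =
            ((univ : Finset (Fin (hV a θ d y.1))).filter fun i =>
              (⟨y.1, i⟩ : Σ m : ℕ, Fin (hV a θ d m)) ∈ s).image fun i => ⟨y.1, i⟩ := by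
          ext ⟨m, i⟩
          simp only [mem_filter, mem_image, mem_univ, true_and]
          constructor
          · rintro ⟨h7, h8⟩
            subst h8
            exact ⟨i, h7, rfl⟩
          · rintro ⟨j, h7, h8⟩
            refine ⟨h8 ▸ h7, ?_⟩
            exact (congrArg Sigma.fst h8).symm
        rw [h6, sum_image (by
          intro i _ j _ h
          simpa using h), sum_filter]
        refine sum_congr rfl fun i _ => ?_
        split_ifs
        · rfl
        · rw [zero_smul]
      rw [← h5] at hc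
      have h8 : ((JD a θ d).mkQ (∑ i : Fin (hV a θ d y.1),
          (if (⟨y.1, i⟩ : Σ m : ℕ, Fin (hV a θ d m)) ∈ s then
          g ⟨y.1, i⟩ else 0) • vecD (a := a) (θ := θ) d y.1 i)) = 0 := by
        rw [Submodule.mkQ_apply, Submodule.Quotient.mk_eq_zero]
        exact hc
      rw [map_sum] at h8
      rw [← h8]
      exact sum_congr rfl fun i _ => (map_smul _ _ _).symm
  exact h1.comp (fun y : YY a θ d => y.1) Subtype.val_injective

variable (a θ) in
/-- the letters -/
def letters : Letters a θ where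
  Y := YY a θ
  v {d} y := vecD (a := a) (θ := θ) d y.1.1 y.1.2
  dg {d} y := y.1.1
  fin := finite_YY
  ne d y := y.2.1
  wt d y := y.2.2
  alt d y := (vecD_mem (a := a) (θ := θ) d y.1.1 y.1.2).1.1
  hom d y := (mem_homogeneousSubmodule _ _).1 (vecD_mem (a := a) (θ := θ) d y.1.1 y.1.2).1.2
  fil d y := (vecD_mem (a := a) (θ := θ) d y.1.1 y.1.2).2
  ind := linearIndependent_YY
  span d hd hw f hf hfil := by
    classical
    have h1 : ∀ m, ∃ g ∈ Submodule.span ℚ (Set.range fun y : YY a θ d =>
        vecD (a := a) (θ := θ) d y.1.1 y.1.2), homogeneousComponent m f - g ∈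
        J0 ℚ (aP a d) (θP θ d) univ := by
      intro m
      have hm : homogeneousComponent m f ∈ PF a θ d m :=
        ⟨⟨alt_hc hf m, (mem_homogeneousSubmodule _ _).2 (homogeneousComponent_isHomogeneous m f)⟩,
          Fil.hc hfil m⟩
      obtain ⟨r, hr⟩ := exists_sum_vecD hm
      exact ⟨_, Submodule.sum_mem _ fun i _ => Submodule.smul_mem _ _
        (Submodule.subset_span ⟨⟨⟨m, i⟩, hd, hw⟩, rfl⟩), hr⟩
    choose g hg1 hg2 using h1
    refine ⟨∑ m ∈ range (f.totalDegree + 1), g m, Submodule.sum_mem _ fun m _ => hg1 m, ?_⟩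
    have h2 : f - ∑ m ∈ range (f.totalDegree + 1), g m =
        ∑ m ∈ range (f.totalDegree + 1), (homogeneousComponent m f - g m) := by
      rw [sum_sub_distrib, sum_homogeneousComponent]
    rw [h2]
    exact Ideal.sum_mem _ fun m _ => hg2 m

theorem w0 : W0 := fun _ a θ _ => ⟨letters a θ⟩

end

end Vale.Agent.P066.Lab.H402
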