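import Mathlib

/-!
# Super multisets (block LSb of the local theorem)

`P` finite set of positions, `γ : P → D` classes of the positions, `odd : D → Prop` the odd classes,
`Y` letters, `cl : Y → D`.  A *word* is `φ : P → Y` with `cl ∘ φ = γ` and `Q (multiset of φ)`.
A function `F` on the words is *super* if `F (φ ∘ swap i j) = ± F φ` for `γ i = γ j`, with the sign
`-1` exactly for an odd class.  The super functions are the functions on the super multisets
`M : Multiset Y` with `M.map cl = γ`, `Q M` and no repeated odd letter.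
-/

set_option autoImplicit false
set_option linter.unusedSectionVars false

open Finset Equiv

namespace Vale.Agent.P066.Lab.H402

section Perm

variable {P : Type*} [Fintype P] [DecidableEq P] {D : Type*} (γ : P → D)

/-- permutations of the positions which preserve the class -/
def HG : Subgroup (Perm P) where
  carrier := {σ | ∀ p, γ (σ p) = γ p}
  mul_mem' := by
    intro a b ha hb p
    rw [Perm.mul_apply, ha, hb]
  one_mem' := fun p => rfl
  inv_mem' := by
    intro a ha p
    have := ha (a⁻¹ p)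
    simpa using this.symm

theorem mem_HG {σ : Perm P} : σ ∈ HG γ ↔ ∀ p, γ (σ p) = γ p := Iff.rfl

theorem swap_mem_HG {i j : P} (h : γ i = γ j) : swap i j ∈ HG γ := by
  intro p
  rcases eq_or_ne p i with rfl | hi
  · rw [swap_apply_left, h]
  · rcases eq_or_ne p j with rfl | hj
    · rw [swap_apply_right, h]
    · rw [swap_apply_of_ne_of_ne hi hj]

/-- induction over the class preserving permutations by swaps inside the classes -/
theorem HG_induction (motive : Perm P → Prop) (h1 : motive 1)
    (hmul : ∀ i j : P, ∀ σ : Perm P, γ i = γ j → i ≠ j → σ ∈ HG γ → motive σ →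
      motive (swap i j * σ)) :
    ∀ σ : Perm P, σ ∈ HG γ → motive σ := by
  have key : ∀ n : ℕ, ∀ σ : Perm P, σ.support.card = n → σ ∈ HG γ → motive σ := by
    intro n
    induction n using Nat.strong_induction_on with
    | _ n ih =>
      intro σ hn hσ
      by_cases h : σ = 1
      · rw [h]; exact h1
      · obtain ⟨p, hp⟩ : ∃ p, σ p ≠ p := by
          by_contra hc
          push Not at hc
          exact h (Perm.ext hc)
        have hlt := Perm.card_support_swap_mul hp
        have hg : γ p = γ (σ p) := (hσ p).symm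
        have hmem : swap p (σ p) * σ ∈ HG γ := (HG γ).mul_mem (swap_mem_HG γ hg) hσ
        have h2 := ih _ (by rw [← hn]; exact hlt) (swap p (σ p) * σ) rfl hmem
        have h3 := hmul p (σ p) _ hg (Ne.symm hp) hmem h2
        rwa [← mul_assoc, swap_mul_self, one_mul] at h3
  exact fun σ hσ => key _ σ rfl hσ

variable (odd : D → Prop) [DecidablePred odd]

/-- sign of a class preserving permutation on the odd positions -/
def chi (σ : Perm P) (hσ : σ ∈ HG γ) : ℤˣ :=
  Perm.sign (σ.subtypePerm (p := fun p => odd (γ p)) (fun p => by rw [hσ p]))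

theorem chi_one : chi γ odd 1 (HG γ).one_mem = 1 := by
  unfold chi
  rw [Perm.subtypePerm_one, Perm.sign_one]

theorem chi_mul (σ τ : Perm P) (hσ : σ ∈ HG γ) (hτ : τ ∈ HG γ) :
    chi γ odd (σ * τ) ((HG γ).mul_mem hσ hτ) = chi γ odd σ hσ * chi γ odd τ hτ := by
  unfold chi
  rw [← Perm.sign_mul, Perm.subtypePerm_mul]

theorem chi_swap {i j : P} (h : γ i = γ j) (hij : i ≠ j) :
    chi γ odd (swap i j) (swap_mem_HG γ h) = if odd (γ i) then -1 else 1 := by
  unfold chi
  split_ifs with ho
  · have hoj : odd (γ j) := h ▸ ho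
    have : (swap i j).subtypePerm (p := fun p => odd (γ p))
        (fun p => by rw [swap_mem_HG γ h p]) =
        swap (⟨i, ho⟩ : {p // odd (γ p)}) ⟨j, hoj⟩ := by
      ext x
      simp only [Perm.subtypePerm_apply]
      rw [swap_apply_def, swap_apply_def]
      by_cases h1 : (x : P) = i
      · rw [if_pos h1, if_pos (Subtype.ext h1)]
      · rw [if_neg h1, if_neg (fun hh => h1 (congrArg Subtype.val hh))]
        by_cases h2 : (x : P) = j
        · rw [if_pos h2, if_pos (Subtype.ext h2)]
        · rw [if_neg h2, if_neg (fun hh => h2 (congrArg Subtype.val hh))]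
    rw [this, Perm.sign_swap]
    exact fun hh => hij (congrArg Subtype.val hh)
  · have hoj : ¬ odd (γ j) := h ▸ ho
    have : (swap i j).subtypePerm (p := fun p => odd (γ p))
        (fun p => by rw [swap_mem_HG γ h p]) = 1 := by
      ext x
      simp only [Perm.subtypePerm_apply, Perm.coe_one, id_eq]
      rw [swap_apply_of_ne_of_ne]
      · rintro h1
        exact ho (h1 ▸ x.2)
      · rintro h1
        exact hoj (h1 ▸ x.2)
    rw [this, Perm.sign_one]

theorem chi_of_fix (σ : Perm P) (hσ : σ ∈ HG γ) (h : ∀ p, odd (γ p) → σ p = p) :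
    chi γ odd σ hσ = 1 := by
  unfold chi
  have : σ.subtypePerm (p := fun p => odd (γ p)) (fun p => by rw [hσ p]) = 1 := by
    ext x
    simp only [Perm.subtypePerm_apply, Perm.coe_one, id_eq]
    exact h x x.2
  rw [this, Perm.sign_one]

end Perm

section Words

variable {P : Type*} [Fintype P] [DecidableEq P] {D : Type*} (γ : P → D)
variable {Y : Type*} (cl : Y → D) (Q : Multiset Y → Prop)

/-- the words: letters on the positions, of the given classes -/
def Word : Type _ := {φ : P → Y // (∀ p, cl (φ p) = γ p) ∧ Q (univ.val.map φ)}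

variable {γ cl Q}

/-- the multiset of a word -/
def Word.ms (φ : Word γ cl Q) : Multiset Y := univ.val.map φ.1

theorem map_univ_comp_perm {Z : Type*} (φ : P → Z) (σ : Perm P) :
    (univ.val.map fun p => φ (σ p)) = univ.val.map φ := by
  have h := Multiset.map_univ_val_equiv σ
  calc (univ.val.map fun p => φ (σ p)) = (univ.val.map σ).map φ := by
        rw [Multiset.map_map]; rfl
    _ = _ := by rw [h]

/-- permute the positions by a class preserving permutation -/
def Word.perm (φ : Word γ cl Q) (σ : Perm P) (hσ : σ ∈ HG γ) : Word γ cl Q :=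
  ⟨fun p => φ.1 (σ p), fun p => by rw [φ.2.1, hσ p], by
    rw [map_univ_comp_perm]; exact φ.2.2⟩

theorem Word.ms_perm (φ : Word γ cl Q) (σ : Perm P) (hσ : σ ∈ HG γ) :
    (φ.perm σ hσ).ms = φ.ms := map_univ_comp_perm _ _

theorem Word.perm_one (φ : Word γ cl Q) : φ.perm 1 (HG γ).one_mem = φ := rfl

theorem Word.perm_perm (φ : Word γ cl Q) (σ τ : Perm P) (hσ : σ ∈ HG γ) (hτ : τ ∈ HG γ) :
    (φ.perm σ hσ).perm τ hτ = φ.perm (σ * τ) ((HG γ).mul_mem hσ hτ) := rfl

theorem exists_perm_of_map_eq {Z : Type*} {φ ψ : P → Z}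
    (h : univ.val.map φ = univ.val.map ψ) : ∃ σ : Perm P, ∀ p, ψ (σ p) = φ p := by
  classical
  have hc : ∀ z, Fintype.card {p // φ p = z} = Fintype.card {p // ψ p = z} := by
    intro z
    rw [Fintype.card_subtype, Fintype.card_subtype]
    have h1 := congrArg (Multiset.count z) h
    rw [Multiset.count_map, Multiset.count_map] at h1
    rw [Finset.card_def, Finset.card_def, Finset.filter_val, Finset.filter_val]
    simpa only [eq_comm] using h1
  refine ⟨Equiv.ofFiberEquiv (f := φ) (g := ψ) fun z => Fintype.equivOfCardEq (hc z), fun p => ?_⟩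
  exact Equiv.ofFiberEquiv_map _ _

theorem Word.exists_perm {φ ψ : Word γ cl Q} (h : ψ.ms = φ.ms) :
    ∃ σ : Perm P, ∃ hσ : σ ∈ HG γ, ψ = φ.perm σ hσ := by
  obtain ⟨σ, hσ⟩ := exists_perm_of_map_eq (φ := ψ.1) (ψ := φ.1) h
  have hm : σ ∈ HG γ := by
    intro p
    rw [← φ.2.1 (σ p), hσ, ψ.2.1]
  exact ⟨σ, hm, Subtype.ext (funext fun p => (hσ p).symm)⟩

variable (γ cl Q) (odd : D → Prop) [DecidablePred odd]

/-- the super multisets: class content `γ`, no repeated odd letter, `Q` -/
def SM [DecidableEq Y] : Type _ :=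
  {M : Multiset Y // M.map cl = univ.val.map γ ∧ Q M ∧ ∀ y, odd (cl y) → M.count y ≤ 1}

variable (k : Type*) [Field k]

/-- the sign of a class -/
def sg (d : D) : k := if odd d then -1 else 1

/-- super functions on the words -/
def SuperFn : Submodule k (Word γ cl Q → k) where
  carrier := {F | ∀ i j, ∀ h : γ i = γ j, i ≠ j → ∀ φ : Word γ cl Q,
    F (φ.perm (swap i j) (swap_mem_HG γ h)) = sg odd k (γ i) * F φ}
  add_mem' := by
    intro a b ha hb i j h hij φ
    rw [Pi.add_apply, Pi.add_apply, ha i j h hij, hb i j h hij, mul_add]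
  zero_mem' := by
    intro i j h hij φ
    simp
  smul_mem' := by
    intro c a ha i j h hij φ
    rw [Pi.smul_apply, Pi.smul_apply, ha i j h hij, smul_eq_mul, smul_eq_mul]
    ring

variable {γ cl Q odd k}

theorem SuperFn.perm {F : Word γ cl Q → k} (hF : F ∈ SuperFn γ cl Q odd k) (σ : Perm P)
    (hσ : σ ∈ HG γ) : ∀ φ : Word γ cl Q,
    F (φ.perm σ hσ) = ((chi γ odd σ hσ : ℤ) : k) * F φ := by
  have key := HG_induction γ (fun σ => ∀ hσ : σ ∈ HG γ, ∀ φ : Word γ cl Q,
    F (φ.perm σ hσ) = ((chi γ odd σ hσ : ℤ) : k) * F φ) ?_ ?_ σ hσ hσ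
  · exact key
  · intro h φ
    rw [chi_one, Word.perm_one]
    simp
  · intro i j σ hg hij hs ih hmem φ
    have h1 := Word.perm_perm φ (swap i j) σ (swap_mem_HG γ hg) hs
    rw [← h1, ih hs, hF i j hg hij, chi_mul γ odd (swap i j) σ (swap_mem_HG γ hg) hs,
      chi_swap γ odd hg hij]
    unfold sg
    split_ifs <;> simp

theorem SuperFn.eq_zero [CharZero k] [DecidableEq Y] {F : Word γ cl Q → k}
    (hF : F ∈ SuperFn γ cl Q odd k) (φ : Word γ cl Q) (y : Y) (hy : odd (cl y))
    (h2 : ¬ φ.ms.count y ≤ 1) : F φ = 0 := by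
  have h3 : 1 < (univ.filter fun p => y = φ.1 p).card := by
    have : φ.ms.count y = (univ.filter fun p => y = φ.1 p).card := by
      unfold Word.ms
      rw [Multiset.count_map, Finset.card_def, Finset.filter_val]
    omega
  obtain ⟨i, hi, j, hj, hij⟩ := Finset.one_lt_card.mp h3
  rw [mem_filter] at hi hj
  have hγ : γ i = γ j := by rw [← φ.2.1 i, ← φ.2.1 j, ← hi.2, ← hj.2]
  have h4 := hF i j hγ hij φ
  have h5 : φ.perm (swap i j) (swap_mem_HG γ hγ) = φ := by
    apply Subtype.ext
    funext p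
    show φ.1 (swap i j p) = φ.1 p
    rcases eq_or_ne p i with rfl | hpi
    · rw [swap_apply_left, ← hi.2, ← hj.2]
    · rcases eq_or_ne p j with rfl | hpj
      · rw [swap_apply_right, ← hi.2, ← hj.2]
      · rw [swap_apply_of_ne_of_ne hpi hpj]
  have hodd : odd (γ i) := by rw [← φ.2.1 i, ← hi.2]; exact hy
  rw [h5] at h4
  unfold sg at h4
  rw [if_pos hodd] at h4
  linear_combination h4 / 2

/-- every multiset with the right class content is the multiset of a word -/
theorem exists_word (M : Multiset Y) (hM : M.map cl = univ.val.map γ) (hQ : Q M) :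
    ∃ φ : Word γ cl Q, φ.ms = M := by
  classical
  -- a word for the multiset, forgetting the classes
  have hcard : M.card = Fintype.card P := by
    have := congrArg Multiset.card hM
    simpa using this
  have hM' : M.card = (univ : Finset P).val.card := by
    rw [hcard]; rfl
  -- enumerate
  obtain ⟨l, rfl⟩ := Quot.exists_rep M
  have e : P ≃ Fin l.length := Fintype.equivOfCardEq (by
    rw [Fintype.card_fin]
    have : Multiset.card (Quot.mk _ l : Multiset Y) = l.length := rfl
    omega)
  let φ0 : P → Y := fun p => l.get (e p)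
  have hφ0 : univ.val.map φ0 = (Quot.mk _ l : Multiset Y) := by
    have h1 : univ.val.map φ0 = (univ : Finset (Fin l.length)).val.map l.get := by
      have := Multiset.map_univ_val_equiv e
      rw [← this, Multiset.map_map]
      rfl
    rw [h1]
    have h2 : (univ : Finset (Fin l.length)).val.map l.get = ((List.finRange l.length).map l.get :
      Multiset Y) := rfl
    rw [h2]
    have h3 : (List.finRange l.length).map l.get = l := by
      exact List.map_get_finRange l
    rw [h3]
    rfl
  -- adjust the classes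
  have h5 : univ.val.map (fun p => cl (φ0 p)) = univ.val.map γ := by
    rw [← hM, ← hφ0, Multiset.map_map]
    rfl
  obtain ⟨σ, hσ⟩ := exists_perm_of_map_eq (φ := γ) (ψ := fun p => cl (φ0 p)) h5.symm
  refine ⟨⟨fun p => φ0 (σ p), fun p => hσ p, ?_⟩, ?_⟩
  · rw [map_univ_comp_perm, hφ0]; exact hQ
  · show univ.val.map (fun p => φ0 (σ p)) = _
    rw [map_univ_comp_perm, hφ0]

variable [DecidableEq Y]

/-- chosen word of a super multiset -/
noncomputable def rep (M : SM γ cl Q odd) : Word γ cl Q :=
  (exists_word M.1 M.2.1 M.2.2.1).choose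

theorem rep_ms (M : SM γ cl Q odd) : (rep M).ms = M.1 :=
  (exists_word M.1 M.2.1 M.2.2.1).choose_spec

theorem Word.ms_map (φ : Word γ cl Q) : φ.ms.map cl = univ.val.map γ := by
  unfold Word.ms
  rw [Multiset.map_map]
  congr 1
  funext p
  exact φ.2.1 p

/-- a word with no repeated odd letter gives a super multiset -/
def Word.toSM (φ : Word γ cl Q) (h : ∀ y, odd (cl y) → φ.ms.count y ≤ 1) : SM γ cl Q odd :=
  ⟨φ.ms, φ.ms_map, φ.2.2, h⟩

theorem chi_eq_of_perm_eq {φ : Word γ cl Q} (h : ∀ y, odd (cl y) → φ.ms.count y ≤ 1)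
    {σ τ : Perm P} {hσ : σ ∈ HG γ} {hτ : τ ∈ HG γ} (he : φ.perm σ hσ = φ.perm τ hτ) :
    chi γ odd σ hσ = chi γ odd τ hτ := by
  have h1 : chi γ odd (σ * τ⁻¹) ((HG γ).mul_mem hσ ((HG γ).inv_mem hτ)) = 1 := by
    apply chi_of_fix
    intro p hp
    by_contra hne
    have h2 : φ.1 (σ (τ⁻¹ p)) = φ.1 p := by
      have := congrFun (congrArg Subtype.val he) (τ⁻¹ p)
      change φ.1 (σ (τ⁻¹ p)) = φ.1 (τ (τ⁻¹ p)) at this
      simpa using this
    have h3 : φ.ms.count (φ.1 p) ≤ 1 := h _ (by rw [φ.2.1]; exact hp)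
    have h4 : φ.ms.count (φ.1 p) = (univ.filter fun q => φ.1 p = φ.1 q).card := by
      unfold Word.ms
      rw [Multiset.count_map, Finset.card_def, Finset.filter_val]
    have h5 : 1 < (univ.filter fun q => φ.1 p = φ.1 q).card := by
      rw [Finset.one_lt_card]
      refine ⟨p, by simp, σ (τ⁻¹ p), ?_, fun hh => hne hh.symm⟩
      rw [mem_filter]
      exact ⟨mem_univ _, h2.symm⟩
    omega
  have h2 := chi_mul γ odd (σ * τ⁻¹) τ ((HG γ).mul_mem hσ ((HG γ).inv_mem hτ)) hτ
  rw [h1, one_mul] at h2
  rw [← h2]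
  congr 1
  group

theorem toSM_perm (φ : Word γ cl Q) (h : ∀ y, odd (cl y) → φ.ms.count y ≤ 1) (σ : Perm P)
    (hσ : σ ∈ HG γ) (h' : ∀ y, odd (cl y) → (φ.perm σ hσ).ms.count y ≤ 1) :
    (φ.perm σ hσ).toSM (odd := odd) h' = φ.toSM h :=
  Subtype.ext (φ.ms_perm σ hσ)

theorem rep_count (M : SM γ cl Q odd) : ∀ y, odd (cl y) → (rep M).ms.count y ≤ 1 := by
  intro y hy
  rw [rep_ms]
  exact M.2.2.2 y hy

theorem toSM_rep (M : SM γ cl Q odd) : (rep M).toSM (odd := odd) (rep_count M) = M :=
  Subtype.ext (rep_ms M)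

theorem exists_srt (φ : Word γ cl Q) (h : ∀ y, odd (cl y) → φ.ms.count y ≤ 1) :
    ∃ σ : Perm P, ∃ hσ : σ ∈ HG γ, φ = (rep (φ.toSM (odd := odd) h)).perm σ hσ :=
  Word.exists_perm (rep_ms (φ.toSM (odd := odd) h)).symm

/-- the sign of a word without repeated odd letters (relative to the chosen word) -/
noncomputable def wsgn (φ : Word γ cl Q) (h : ∀ y, odd (cl y) → φ.ms.count y ≤ 1) : ℤˣ :=
  chi γ odd (exists_srt (odd := odd) φ h).choose (exists_srt (odd := odd) φ h).choose_spec.choose

theorem wsgn_spec (φ : Word γ cl Q) (h : ∀ y, odd (cl y) → φ.ms.count y ≤ 1) :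
    ∃ σ : Perm P, ∃ hσ : σ ∈ HG γ, φ = (rep (φ.toSM (odd := odd) h)).perm σ hσ ∧
      wsgn (odd := odd) φ h = chi γ odd σ hσ :=
  ⟨_, _, (exists_srt (odd := odd) φ h).choose_spec.choose_spec, rfl⟩

theorem wsgn_eq {φ : Word γ cl Q} (h : ∀ y, odd (cl y) → φ.ms.count y ≤ 1) (M : SM γ cl Q odd)
    (τ : Perm P) (hτ : τ ∈ HG γ) (he : φ = (rep M).perm τ hτ) :
    wsgn (odd := odd) φ h = chi γ odd τ hτ := by
  obtain ⟨σ, hσ, h1, h2⟩ := wsgn_spec (odd := odd) φ h
  have hM : φ.toSM (odd := odd) h = M := by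
    apply Subtype.ext
    show φ.ms = M.1
    rw [he, Word.ms_perm, rep_ms]
  rw [h2]
  rw [hM] at h1
  exact chi_eq_of_perm_eq (rep_count M) (h1.symm.trans he)

theorem wsgn_perm (φ : Word γ cl Q) (h : ∀ y, odd (cl y) → φ.ms.count y ≤ 1) (τ : Perm P)
    (hτ : τ ∈ HG γ) (h' : ∀ y, odd (cl y) → (φ.perm τ hτ).ms.count y ≤ 1) :
    wsgn (odd := odd) (φ.perm τ hτ) h' = wsgn (odd := odd) φ h * chi γ odd τ hτ := by
  obtain ⟨σ, hσ, h1, h2⟩ := wsgn_spec (odd := odd) φ h
  rw [h2, ← chi_mul γ odd σ τ hσ hτ]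
  apply wsgn_eq h' (φ.toSM (odd := odd) h)
  conv_lhs => rw [h1]
  rfl

theorem wsgn_rep (M : SM γ cl Q odd) : wsgn (odd := odd) (rep M) (rep_count M) = 1 := by
  rw [wsgn_eq (rep_count M) M 1 (HG γ).one_mem rfl, chi_one]

open Classical in
/-- the super function with given values on the super multisets -/
noncomputable def ofSM (H : SM γ cl Q odd → k) (φ : Word γ cl Q) : k :=
  if h : ∀ y, odd (cl y) → φ.ms.count y ≤ 1 then
    ((wsgn (odd := odd) φ h : ℤ) : k) * H (φ.toSM h)
  else 0

theorem ofSM_mem (H : SM γ cl Q odd → k) : ofSM H ∈ SuperFn γ cl Q odd k := by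
  intro i j hg hij φ
  have hms := φ.ms_perm (swap i j) (swap_mem_HG γ hg)
  unfold ofSM
  by_cases h : ∀ y, odd (cl y) → φ.ms.count y ≤ 1
  · have h' : ∀ y, odd (cl y) → (φ.perm (swap i j) (swap_mem_HG γ hg)).ms.count y ≤ 1 := by
      intro y hy
      rw [hms]
      exact h y hy
    rw [dif_pos h, dif_pos h', toSM_perm φ h _ _ h', wsgn_perm φ h _ _ h', chi_swap γ odd hg hij]
    unfold sg
    split_ifs <;> simp
  · have h' : ¬ ∀ y, odd (cl y) → (φ.perm (swap i j) (swap_mem_HG γ hg)).ms.count y ≤ 1 := by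
      rw [hms]
      exact h
    rw [dif_neg h, dif_neg h', mul_zero]

/-- **LSb**: super functions on the words = functions on the super multisets. -/
noncomputable def superEquiv [CharZero k] :
    SuperFn γ cl Q odd k ≃ₗ[k] (SM γ cl Q odd → k) where
  toFun F M := F.1 (rep M)
  map_add' F G := rfl
  map_smul' c F := rfl
  invFun H := ⟨ofSM H, ofSM_mem H⟩
  left_inv := by
    intro F
    apply Subtype.ext
    funext φ
    show ofSM (fun M => F.1 (rep M)) φ = F.1 φ
    unfold ofSM
    by_cases h : ∀ y, odd (cl y) → φ.ms.count y ≤ 1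
    · rw [dif_pos h]
      obtain ⟨σ, hσ, h1, h2⟩ := wsgn_spec (odd := odd) φ h
      rw [h2]
      conv_rhs => rw [h1, SuperFn.perm F.2]
    · rw [dif_neg h]
      push Not at h
      obtain ⟨y, hy, hc⟩ := h
      exact (SuperFn.eq_zero F.2 φ y hy (not_le.mpr hc)).symm
  right_inv := by
    intro H
    funext M
    show ofSM H (rep M) = H M
    unfold ofSM
    rw [dif_pos (rep_count M), wsgn_rep, toSM_rep]
    simp

instance [Finite Y] : Finite (Word γ cl Q) := Subtype.finite

theorem finite_SM [Finite (Word γ cl Q)] : Finite (SM γ cl Q odd) :=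
  Finite.of_injective (rep (γ := γ) (cl := cl) (Q := Q) (odd := odd)) (by
    intro M N h
    rw [← toSM_rep M, ← toSM_rep N]
    apply Subtype.ext
    show (rep M).ms = (rep N).ms
    rw [h])

theorem finrank_superFn [CharZero k] [Finite (Word γ cl Q)] :
    Module.finrank k (SuperFn γ cl Q odd k) = Nat.card (SM γ cl Q odd) := by
  have : Finite (SM γ cl Q odd) := finite_SM
  have := Fintype.ofFinite (SM γ cl Q odd)
  rw [(superEquiv (γ := γ) (cl := cl) (Q := Q) (odd := odd) (k := k)).finrank_eq,
    Module.finrank_fintype_fun_eq_card, Nat.card_eq_fintype_card]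

end Words

section Module

variable {P : Type*} [Fintype P] [DecidableEq P] {D : Type*} {γ : P → D}
variable {Y : Type*} [DecidableEq Y] {cl : Y → D} {Q : Multiset Y → Prop}
variable {odd : D → Prop} [DecidablePred odd] {k : Type*} [Field k] [CharZero k]
variable {W : Type*} [AddCommGroup W] [Module k W]

/-- basis version: `A i j` exchanges the letters at `i` and `j`; the subspace of the super vectors
is isomorphic to the functions on the super multisets. -/
theorem super_subspace [Finite (Word γ cl Q)] (b : Module.Basis (Word γ cl Q) k W)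
    (A : P → P → W →ₗ[k] W)
    (hA : ∀ i j, ∀ h : γ i = γ j, i ≠ j → ∀ φ, A i j (b φ) = b (φ.perm (swap i j) (swap_mem_HG γ h)))
    (V : Submodule k W)
    (hV : ∀ w, w ∈ V ↔ ∀ i j, γ i = γ j → i ≠ j → A i j w = sg odd k (γ i) • w) :
    Nonempty (V ≃ₗ[k] (SM γ cl Q odd → k)) ∧
      Module.finrank k V = Nat.card (SM γ cl Q odd) ∧ Module.Finite k V := by
  classical
  have : Finite (SM γ cl Q odd) := finite_SM
  have := Fintype.ofFinite (SM γ cl Q odd)
  have := Fintype.ofFinite (Word γ cl Q)
  -- coordinates of `A i j w`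
  have hco : ∀ i j, ∀ h : γ i = γ j, i ≠ j → ∀ w φ,
      b.equivFun (A i j w) φ = b.equivFun w (φ.perm (swap i j) (swap_mem_HG γ h)) := by
    intro i j h hij w φ
    have hinv : ∀ φ : Word γ cl Q, (φ.perm (swap i j) (swap_mem_HG γ h)).perm (swap i j)
        (swap_mem_HG γ h) = φ := by
      intro φ
      apply Subtype.ext
      funext p
      show φ.1 (swap i j (swap i j p)) = φ.1 p
      rw [swap_apply_self]
    have hlin : ∀ φ, (LinearMap.proj φ ∘ₗ b.equivFun.toLinearMap ∘ₗ A i j : W →ₗ[k] k) =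
        LinearMap.proj (φ.perm (swap i j) (swap_mem_HG γ h)) ∘ₗ b.equivFun.toLinearMap := by
      intro φ
      apply b.ext
      intro ψ
      simp only [LinearMap.comp_apply, LinearEquiv.coe_coe, LinearMap.proj_apply]
      rw [hA i j h hij ψ, Module.Basis.equivFun_self, Module.Basis.equivFun_self]
      by_cases he : ψ.perm (swap i j) (swap_mem_HG γ h) = φ
      · rw [if_pos he, if_pos]
        rw [← he, hinv]
      · rw [if_neg he, if_neg]
        intro hh
        apply he
        rw [hh, hinv]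
    have := LinearMap.congr_fun (hlin φ) w
    simpa using this
  have e : V ≃ₗ[k] SuperFn γ cl Q odd k := by
    refine LinearEquiv.ofSubmodules b.equivFun V (SuperFn γ cl Q odd k) ?_
    ext F
    constructor
    · rintro ⟨w, hw, rfl⟩
      intro i j h hij φ
      have h1 := (hV w).mp hw i j h hij
      have h2 := hco i j h hij w φ
      rw [LinearEquiv.coe_coe, ← h2, h1]
      simp
    · intro hF
      refine ⟨b.equivFun.symm F, ?_, b.equivFun.apply_symm_apply F⟩
      rw [SetLike.mem_coe, hV]
      intro i j h hij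
      apply b.equivFun.injective
      funext φ
      rw [hco i j h hij]
      simp only [LinearEquiv.apply_symm_apply, map_smul, Pi.smul_apply, smul_eq_mul]
      exact hF i j h hij φ
  have e2 := e.trans superEquiv
  refine ⟨⟨e2⟩, ?_, Module.Finite.equiv e2.symm⟩
  rw [e2.finrank_eq, Module.finrank_fintype_fun_eq_card, Nat.card_eq_fintype_card]

end Module

end Vale.Agent.P066.Lab.H402
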