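import Vale.Agent.P066.Lab.LSW.Words
import Vale.Agent.P066.Lab.H66.Blocks

/-!
# [LSW] The swap of two blocks carrying the same letter: signs
-/

set_option autoImplicit false

open Finset MvPolynomial

namespace Vale.Agent.P066.Lab.LSW

open Vale.Agent.P066.Lab
open Vale.Agent.P066.Theta.H422 (Alt TP mem_TP mem_Alt)

noncomputable section

variable {n : ℕ} {a : Fin n → Fin n → ℕ} {θ : Fin n → ℤ}

/-- the identification of the particle sets of two equal classes -/
def cP {d e : Fin n →₀ ℕ} (h : d = e) : Pt d ≃ Pt e := h ▸ Equiv.refl (Pt d)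

theorem cP_fst {d e : Fin n →₀ ℕ} (h : d = e) (p : Pt d) : (cP h p).1 = p.1 := by
  subst h; rfl

theorem rename_cP {L : Letters a θ} {l l' : Ltr L} (h : l = l') :
    rename (cP (congrArg cls h)) (vl l) = vl l' := by
  subst h
  exact rename_id_apply _

theorem swapCard_Pt (d : Fin n →₀ ℕ) : Fintype.card (Pt d) = Theta.deg d := by
  unfold Pt Theta.deg
  simp

/-- **(SG1)** -/
theorem SG1 {L : Letters a θ} {r : ℕ} (w : Fin r → Ltr L) {i j : Fin r} (hij : i ≠ j)
    (h : w i = w j) :
    ∃ g : Equiv.Perm (SW (clsW w)), TB (tyW (clsW w)) (tyW (clsW w)) g ∧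
      (∀ s, (g s).1 = Equiv.swap i j s.1) ∧ rename g (vW w) = vW w ∧
      sg g = (-1 : ℚ) ^ Theta.deg (cls (w i)) := by
  classical
  have hc : clsW w i = clsW w j := congrArg cls h
  obtain ⟨g, hg1, hg2, hg3, hg4⟩ := exists_blockSwap
    (fun x : Pt (clsW w i) => (⟨i, x⟩ : SW (clsW w)))
    (fun x : Pt (clsW w i) => (⟨j, cP hc x⟩ : SW (clsW w)))
    (fun x y hxy => by simpa using hxy)
    (fun x y hxy => (cP hc).injective (by simpa using hxy))
    (fun x y hxy => hij (congrArg Sigma.fst hxy))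
  have hgj : ∀ p : Pt (clsW w j), g ⟨j, p⟩ = ⟨i, (cP hc).symm p⟩ := by
    intro p
    have := hg2 ((cP hc).symm p)
    rwa [Equiv.apply_symm_apply] at this
  have hgk : ∀ k, k ≠ i → k ≠ j → ∀ p : Pt (clsW w k), g ⟨k, p⟩ = ⟨k, p⟩ := by
    intro k hki hkj p
    exact hg3 _ (fun x hx => hki (congrArg Sigma.fst hx).symm)
      (fun x hx => hkj (congrArg Sigma.fst hx).symm)
  refine ⟨g, ?_, ?_, ?_, ?_⟩
  · rintro ⟨k, p⟩
    by_cases hki : k = i
    · subst hki
      rw [hg1]
      exact cP_fst hc p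
    · by_cases hkj : k = j
      · subst hkj
        rw [hgj]
        change ((cP hc).symm p).1 = p.1
        rw [← cP_fst hc, Equiv.apply_symm_apply]
      · rw [hgk k hki hkj]
  · rintro ⟨k, p⟩
    by_cases hki : k = i
    · subst hki
      rw [hg1, Equiv.swap_apply_left]
    · by_cases hkj : k = j
      · subst hkj
        rw [hgj, Equiv.swap_apply_right]
      · rw [hgk k hki hkj, Equiv.swap_apply_of_ne_of_ne hki hkj]
  · unfold vW
    rw [map_prod, ← Equiv.prod_comp (Equiv.swap i j)]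
    refine prod_congr rfl fun k _ => ?_
    rw [rename_rename]
    by_cases hki : k = i
    · subst hki
      rw [Equiv.swap_apply_left]
      have h1 : (⇑g ∘ Sigma.mk (β := fun k => Pt (clsW w k)) j) =
          Sigma.mk (β := fun k => Pt (clsW w k)) k ∘ (cP hc).symm :=
        _root_.funext fun p => hgj p
      rw [h1, ← rename_rename]
      congr 1
      have := rename_cP h
      rw [← this, rename_rename]
      convert rename_id_apply _
      funext p
      simp [cP]
    · by_cases hkj : k = j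
      · subst hkj
        rw [Equiv.swap_apply_right]
        have h1 : (⇑g ∘ Sigma.mk (β := fun k => Pt (clsW w k)) i) =
            Sigma.mk (β := fun k => Pt (clsW w k)) k ∘ cP hc :=
          _root_.funext fun p => hg1 p
        rw [h1, ← rename_rename]
        congr 1
        exact rename_cP h
      · rw [Equiv.swap_apply_of_ne_of_ne hki hkj]
        congr 2
        funext p
        exact hgk k hki hkj p
  · unfold sg
    rw [hg4, swapCard_Pt]
    push_cast
    rfl

theorem swapSum_Pt (d : Fin n →₀ ℕ) (f : Fin n → ℕ) : ∑ x : Pt d, f x.1 = ∑ i, d i * f i := by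
  unfold Pt
  rw [Fintype.sum_sigma]
  simp

theorem swapSum_Pt_Pt (a : Fin n → Fin n → ℕ) (d e : Fin n →₀ ℕ) :
    ∑ x : Pt d, ∑ y : Pt e, a x.1 y.1 = arD a d e := by
  unfold arD
  rw [sum_congr rfl (g := fun x : Pt d => ∑ j, e j * a x.1 j) fun x _ =>
    swapSum_Pt e fun j => a x.1 j]
  rw [swapSum_Pt d fun i => ∑ j, e j * a i j]
  refine sum_congr rfl fun i _ => ?_
  rw [mul_sum]
  exact sum_congr rfl fun j _ => by ring

/-- the number of inverted arrows, block by block -/
theorem invN_cW {r : ℕ} (D : Fin r → Fin n →₀ ℕ) (τ : Equiv.Perm (Fin r)) :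
    invN (aT a (tyW D)) (exN τ) (cW D) =
      ∑ p ∈ univ.filter (fun p : Fin r × Fin r => p.1 < p.2 ∧ τ p.2 < τ p.1),
        arD a (D p.1) (D p.2) := by
  classical
  unfold invN
  rw [sum_filter, sum_filter, ← univ_product_univ, sum_product, ← univ_product_univ, sum_product,
    Fintype.sum_sigma]
  refine sum_congr rfl fun k _ => ?_
  have h1 : ∀ x : Pt (D k), (∑ t : SW D, if cW D ⟨k, x⟩ < cW D t ∧
      exN τ (cW D t) < exN τ (cW D ⟨k, x⟩) then aT a (tyW D) ⟨k, x⟩ t else 0) =
      ∑ l, ∑ y : Pt (D l), if k < l ∧ τ l < τ k then a x.1 y.1 else 0 := by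
    intro x
    rw [Fintype.sum_sigma]
    refine sum_congr rfl fun l _ => sum_congr rfl fun y _ => ?_
    have e1 : cW D ⟨k, x⟩ = (k : ℕ) := rfl
    have e2 : cW D ⟨l, y⟩ = (l : ℕ) := rfl
    simp only [e1, e2, exN_val, Fin.val_fin_lt]
  rw [sum_congr rfl fun x _ => h1 x, sum_comm]
  refine sum_congr rfl fun l _ => ?_
  by_cases hkl : k < l ∧ τ l < τ k
  · simp only [hkl, and_self, if_true]
    exact swapSum_Pt_Pt a (D k) (D l)
  · simp [hkl]

theorem inv_swap_parity {r : ℕ} (f : Fin r → Fin r → ℕ) {i j : Fin r} (hij : i < j)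
    (hsym : ∀ k l, f k l = f l k) (hf : ∀ k l, f (Equiv.swap i j k) (Equiv.swap i j l) = f k l) :
    ((∑ p ∈ univ.filter (fun p : Fin r × Fin r =>
      p.1 < p.2 ∧ Equiv.swap i j p.2 < Equiv.swap i j p.1), f p.1 p.2 : ℕ) : ZMod 2) = f i j := by
  classical
  set E := univ.filter (fun p : Fin r × Fin r =>
      p.1 < p.2 ∧ Equiv.swap i j p.2 < Equiv.swap i j p.1) with hE
  have hmem : (i, j) ∈ E := by
    rw [hE, mem_filter]
    refine ⟨mem_univ _, hij, ?_⟩
    simpa using hij
  rw [← add_sum_erase E _ hmem]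
  push_cast
  rw [add_eq_left]
  refine sum_involution (fun p _ => (Equiv.swap i j p.2, Equiv.swap i j p.1)) ?_ ?_ ?_ ?_
  · rintro ⟨k, l⟩ _
    simp only
    rw [hf l k, hsym l k]
    exact CharTwo.add_self_eq_zero _
  · rintro ⟨k, l⟩ hp _ heq
    rw [mem_erase, hE, mem_filter] at hp
    obtain ⟨hne, -, hkl, -⟩ := hp
    simp only [Prod.mk.injEq] at heq hne hkl
    obtain ⟨h1, h2⟩ := heq
    have hkl' : k ≠ l := ne_of_lt hkl
    by_cases hki : k = i
    · subst hki
      rw [Equiv.swap_apply_left] at h2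
      exact hne (by rw [h2])
    · by_cases hkj : k = j
      · subst hkj
        rw [Equiv.swap_apply_right] at h2
        subst h2
        exact absurd hkl (not_lt.2 hij.le)
      · rw [Equiv.swap_apply_of_ne_of_ne hki hkj] at h2
        exact hkl' h2
  · rintro ⟨k, l⟩ hp
    rw [mem_erase, hE, mem_filter] at hp ⊢
    obtain ⟨hne, -, hkl, hkl2⟩ := hp
    refine ⟨?_, mem_univ _, hkl2, ?_⟩
    · intro heq
      apply hne
      simp only [Prod.mk.injEq] at heq ⊢
      obtain ⟨h1, h2⟩ := heq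
      have h3 : l = Equiv.swap i j i := by simpa using congrArg (Equiv.swap i j) h1
      have h4 : k = Equiv.swap i j j := by simpa using congrArg (Equiv.swap i j) h2
      rw [Equiv.swap_apply_left] at h3
      rw [Equiv.swap_apply_right] at h4
      exact ⟨h4, h3⟩
    · simpa using hkl
  · rintro ⟨k, l⟩ _
    simp

theorem neg_one_pow_of_zmod {x y : ℕ} (h : (x : ZMod 2) = y) : (-1 : ℚ) ^ x = (-1 : ℚ) ^ y := by
  apply neg_one_pow_congr
  rw [← ZMod.natCast_eq_zero_iff_even, ← ZMod.natCast_eq_zero_iff_even, h]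

/-- **(SG2)** -/
theorem SG2 (hs : SymD a θ) {L : Letters a θ} {r : ℕ} (w : Fin r → Ltr L) {i j : Fin r}
    (hij : i ≠ j) (h : w i = w j) :
    (-1 : ℚ) ^ invN (aT a (tyW (clsW w))) (exN (Equiv.swap i j)) (cW (clsW w)) =
      (-1 : ℚ) ^ arD a (cls (w i)) (cls (w i)) := by
  have hsym : ∀ k l, arD a (clsW w k) (clsW w l) = arD a (clsW w l) (clsW w k) :=
    fun k l => hs _ _ (cls_wt _) (cls_wt _)
  have hsw : ∀ k, w (Equiv.swap i j k) = w k := by
    intro k
    by_cases hki : k = i
    · subst hki; rw [Equiv.swap_apply_left, h]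
    · by_cases hkj : k = j
      · subst hkj; rw [Equiv.swap_apply_right, h]
      · rw [Equiv.swap_apply_of_ne_of_ne hki hkj]
  have hf : ∀ k l, arD a (clsW w (Equiv.swap i j k)) (clsW w (Equiv.swap i j l)) =
      arD a (clsW w k) (clsW w l) := by
    intro k l
    unfold clsW
    rw [hsw, hsw]
  apply neg_one_pow_of_zmod
  rw [invN_cW]
  rcases lt_or_gt_of_ne hij with hlt | hlt
  · rw [inv_swap_parity (fun k l => arD a (clsW w k) (clsW w l)) hlt hsym hf]
    change ((arD a (cls (w i)) (cls (w j)) : ℕ) : ZMod 2) = _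
    rw [← h]
  · rw [Equiv.swap_comm] at hf ⊢
    rw [inv_swap_parity (fun k l => arD a (clsW w k) (clsW w l)) hlt hsym hf]
    change ((arD a (cls (w j)) (cls (w i)) : ℕ) : ZMod 2) = _
    rw [← h]

end

end Vale.Agent.P066.Lab.LSW
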